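import Mathlib

/-!
# P237 (helper38, second copy of pool job P237-KAPPA): Petty's constant is below `2 ^ n`

With `kap m = sqrt(pi) ^ m / Gamma (m / 2 + 1)` (the volume of the unit ball of `ℝ ^ m`),
`kappa_real` says `kap (n - 1) ^ n ≤ 2 ^ n * kap n ^ (n - 2)` for `n ≥ 2`, and `kappa_ball` is the
same inequality for the volumes of the Euclidean unit balls.

Proof: the product formula `kap m * kap (m + 1) = 2 (2 pi) ^ m / (m + 1)!`, the log-convexity of
`Gamma` in the form `2 pi * kap m ^ 2 ≤ (m + 2) * kap (m + 1) ^ 2`, and the elementary bound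
`(pi (k + 3) / 2) ^ (k + 1) ≤ ((k + 2)!) ^ 2` for `k ≥ 2`; the cases `n = 2, 3` are explicit.
-/

open MeasureTheory

namespace Vale.Agent.Lib.P237.H38

/-- `gHalf m = Gamma (m / 2 + 1)`. -/
noncomputable def gHalf (m : ℕ) : ℝ := Real.Gamma ((m : ℝ) / 2 + 1)

/-- `kap m = sqrt(pi) ^ m / Gamma (m / 2 + 1)`: the volume of the unit ball of `ℝ ^ m`. -/
noncomputable def kap (m : ℕ) : ℝ := Real.sqrt Real.pi ^ m / gHalf m

theorem gHalf_pos (m : ℕ) : 0 < gHalf m := by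
  unfold gHalf
  exact Real.Gamma_pos_of_pos (by positivity)

theorem gHalf_add_two (m : ℕ) : gHalf (m + 2) = ((m : ℝ) / 2 + 1) * gHalf m := by
  unfold gHalf
  have h : (((m + 2 : ℕ) : ℝ)) / 2 + 1 = ((m : ℝ) / 2 + 1) + 1 := by
    push_cast
    ring
  rw [h, Real.Gamma_add_one (by positivity)]

theorem gHalf_zero : gHalf 0 = 1 := by
  unfold gHalf
  simp

theorem gHalf_one : gHalf 1 = Real.sqrt Real.pi / 2 := by
  unfold gHalf
  have h : ((1 : ℕ) : ℝ) / 2 + 1 = 1 / 2 + 1 := by norm_num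
  rw [h, Real.Gamma_add_one (by norm_num), Real.Gamma_one_half_eq]
  ring

theorem kap_pos (m : ℕ) : 0 < kap m := by
  unfold kap
  exact div_pos (pow_pos (Real.sqrt_pos.2 Real.pi_pos) m) (gHalf_pos m)

theorem kap_zero : kap 0 = 1 := by
  unfold kap
  rw [gHalf_zero]
  simp

theorem kap_one : kap 1 = 2 := by
  unfold kap
  rw [gHalf_one]
  have : Real.sqrt Real.pi ≠ 0 := (Real.sqrt_pos.2 Real.pi_pos).ne'
  field_simp

theorem kap_add_two (m : ℕ) : kap (m + 2) = 2 * Real.pi / ((m : ℝ) + 2) * kap m := by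
  unfold kap
  rw [gHalf_add_two]
  have hg := (gHalf_pos m).ne'
  have hs : Real.sqrt Real.pi ^ (m + 2) = Real.pi * Real.sqrt Real.pi ^ m := by
    rw [pow_add, Real.sq_sqrt Real.pi_pos.le]
    ring
  rw [hs]
  have hm : ((m : ℝ) + 2) ≠ 0 := by positivity
  field_simp

/-- Product formula. -/
theorem kap_mul_succ (m : ℕ) :
    kap m * kap (m + 1) = 2 * (2 * Real.pi) ^ m / ((m + 1).factorial : ℝ) := by
  induction m with
  | zero =>
    rw [kap_zero, kap_one]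
    simp
  | succ m ih =>
    show kap (m + 1) * kap (m + 2) = 2 * (2 * Real.pi) ^ (m + 1) / ((m + 2).factorial : ℝ)
    rw [kap_add_two]
    have e : kap (m + 1) * (2 * Real.pi / ((m : ℝ) + 2) * kap m)
        = 2 * Real.pi / ((m : ℝ) + 2) * (kap m * kap (m + 1)) := by ring
    rw [e, ih, Nat.factorial_succ (m + 1)]
    have hm : ((m : ℝ) + 2) ≠ 0 := by positivity
    have hf : (((m + 1).factorial : ℕ) : ℝ) ≠ 0 := by positivity
    push_cast
    field_simp
    ring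

/-- Log-convexity of `Gamma` at half-integer steps. -/
theorem gHalf_logconvex (m : ℕ) : gHalf (m + 1) ^ 2 ≤ gHalf m * gHalf (m + 2) := by
  have hp1 := gHalf_pos m
  have hp2 := gHalf_pos (m + 2)
  have hp := gHalf_pos (m + 1)
  have hs : (0 : ℝ) < (m : ℝ) / 2 + 1 := by positivity
  have ht : (0 : ℝ) < ((m + 2 : ℕ) : ℝ) / 2 + 1 := by positivity
  have h := Real.Gamma_mul_add_mul_le_rpow_Gamma_mul_rpow_Gamma hs ht
    (by norm_num : (0 : ℝ) < 1 / 2) (by norm_num : (0 : ℝ) < 1 / 2) (by norm_num)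
  have he : (1 / 2 : ℝ) * ((m : ℝ) / 2 + 1) + 1 / 2 * (((m + 2 : ℕ) : ℝ) / 2 + 1)
      = ((m + 1 : ℕ) : ℝ) / 2 + 1 := by
    push_cast
    ring
  rw [he] at h
  have h' : gHalf (m + 1) ≤ gHalf m ^ (1 / 2 : ℝ) * gHalf (m + 2) ^ (1 / 2 : ℝ) := h
  calc gHalf (m + 1) ^ 2
      ≤ (gHalf m ^ (1 / 2 : ℝ) * gHalf (m + 2) ^ (1 / 2 : ℝ)) ^ 2 :=
        pow_le_pow_left₀ hp.le h' 2
    _ = gHalf m * gHalf (m + 2) := by
        rw [mul_pow, ← Real.rpow_natCast, ← Real.rpow_natCast, ← Real.rpow_mul hp1.le,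
          ← Real.rpow_mul hp2.le]
        norm_num

/-- Log-concavity of `kap` in division-free form. -/
theorem kap_ratio (m : ℕ) : 2 * Real.pi * kap m ^ 2 ≤ ((m : ℝ) + 2) * kap (m + 1) ^ 2 := by
  have hlc := gHalf_logconvex m
  rw [gHalf_add_two] at hlc
  have hg := gHalf_pos m
  have hg1 := gHalf_pos (m + 1)
  have hpi : 0 < Real.pi ^ (m + 1) := pow_pos Real.pi_pos _
  have e1 : kap m ^ 2 = Real.pi ^ m / gHalf m ^ 2 := by
    unfold kap
    rw [div_pow, ← pow_mul, mul_comm m 2, pow_mul, Real.sq_sqrt Real.pi_pos.le]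
  have e2 : kap (m + 1) ^ 2 = Real.pi ^ (m + 1) / gHalf (m + 1) ^ 2 := by
    unfold kap
    rw [div_pow, ← pow_mul, mul_comm (m + 1) 2, pow_mul, Real.sq_sqrt Real.pi_pos.le]
  rw [e1, e2]
  have l : 2 * Real.pi * (Real.pi ^ m / gHalf m ^ 2) = 2 * Real.pi ^ (m + 1) / gHalf m ^ 2 := by
    rw [pow_succ]
    ring
  have r : ((m : ℝ) + 2) * (Real.pi ^ (m + 1) / gHalf (m + 1) ^ 2)
      = ((m : ℝ) + 2) * Real.pi ^ (m + 1) / gHalf (m + 1) ^ 2 := by ring
  rw [l, r, div_le_div_iff₀ (by positivity) (by positivity)]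
  have h2 := mul_le_mul_of_nonneg_left hlc (mul_nonneg zero_le_two hpi.le)
  calc 2 * Real.pi ^ (m + 1) * gHalf (m + 1) ^ 2
      ≤ 2 * Real.pi ^ (m + 1) * (gHalf m * (((m : ℝ) / 2 + 1) * gHalf m)) := h2
    _ = ((m : ℝ) + 2) * Real.pi ^ (m + 1) * gHalf m ^ 2 := by ring

theorem ratio_pow_le (k : ℕ) : (((k : ℝ) + 4) / ((k : ℝ) + 3)) ^ (k + 1) ≤ 3 := by
  have h3 : (0 : ℝ) < (k : ℝ) + 3 := by positivity
  have h1 : ((k : ℝ) + 4) / ((k : ℝ) + 3) ≤ Real.exp (1 / ((k : ℝ) + 3)) := by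
    have := Real.add_one_le_exp (1 / ((k : ℝ) + 3))
    have e : ((k : ℝ) + 4) / ((k : ℝ) + 3) = 1 / ((k : ℝ) + 3) + 1 := by
      field_simp
      ring
    rw [e]
    exact this
  calc (((k : ℝ) + 4) / ((k : ℝ) + 3)) ^ (k + 1)
      ≤ Real.exp (1 / ((k : ℝ) + 3)) ^ (k + 1) := pow_le_pow_left₀ (by positivity) h1 _
    _ = Real.exp (((k + 1 : ℕ) : ℝ) * (1 / ((k : ℝ) + 3))) := by rw [← Real.exp_nat_mul]
    _ ≤ Real.exp 1 := by
        apply Real.exp_le_exp.2
        push_cast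
        rw [mul_one_div, div_le_one h3]
        linarith
    _ ≤ 3 := by
        have := Real.exp_one_lt_d9
        linarith

theorem fact_bound_aux (k : ℕ) (hk : 3 ≤ k) :
    (Real.pi * ((k : ℝ) + 3) / 2) ^ (k + 1) ≤ (((k + 2).factorial : ℕ) : ℝ) ^ 2 := by
  have hpi := Real.pi_lt_d2
  have hpi0 := Real.pi_pos
  induction k, hk using Nat.le_induction with
  | base =>
    have h1 : Real.pi * (((3 : ℕ) : ℝ) + 3) / 2 ≤ 9.45 := by
      push_cast
      linarith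
    have h2 := pow_le_pow_left₀ (by positivity) h1 (3 + 1)
    have h3 : (((3 + 2).factorial : ℕ) : ℝ) ^ 2 = 14400 := by
      norm_num [Nat.factorial]
    rw [h3]
    refine h2.trans ?_
    norm_num
  | succ k hk ih =>
    have hk' : (3 : ℝ) ≤ (k : ℝ) := by exact_mod_cast hk
    have hr := ratio_pow_le k
    have ha : 0 < Real.pi * ((k : ℝ) + 3) / 2 := by positivity
    have hF : (0 : ℝ) < (((k + 2).factorial : ℕ) : ℝ) := by positivity
    have e : (Real.pi * (((k + 1 : ℕ) : ℝ) + 3) / 2) ^ (k + 1 + 1)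
        = (Real.pi * ((k : ℝ) + 3) / 2) ^ (k + 1) * (((k : ℝ) + 4) / ((k : ℝ) + 3)) ^ (k + 1)
          * (Real.pi * ((k : ℝ) + 4) / 2) := by
      have h3 : ((k : ℝ) + 3) ≠ 0 := by positivity
      rw [← mul_pow, pow_succ]
      push_cast
      congr 1
      · congr 1
        field_simp
        ring
      · ring
    have hf : (((k + 1 + 2).factorial : ℕ) : ℝ) ^ 2
        = (((k + 2).factorial : ℕ) : ℝ) ^ 2 * ((k : ℝ) + 3) ^ 2 := by
      rw [show k + 1 + 2 = (k + 2) + 1 from rfl, Nat.factorial_succ]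
      push_cast
      ring
    rw [e, hf]
    have hb : Real.pi * ((k : ℝ) + 4) / 2 ≤ 3.15 * ((k : ℝ) + 4) / 2 := by
      have : Real.pi * ((k : ℝ) + 4) ≤ 3.15 * ((k : ℝ) + 4) :=
        mul_le_mul_of_nonneg_right hpi.le (by positivity)
      linarith
    have hb0 : 0 ≤ Real.pi * ((k : ℝ) + 4) / 2 := by positivity
    have hq : 3 * (3.15 * ((k : ℝ) + 4) / 2) ≤ ((k : ℝ) + 3) ^ 2 := by nlinarith
    calc (Real.pi * ((k : ℝ) + 3) / 2) ^ (k + 1) * (((k : ℝ) + 4) / ((k : ℝ) + 3)) ^ (k + 1)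
          * (Real.pi * ((k : ℝ) + 4) / 2)
        ≤ (((k + 2).factorial : ℕ) : ℝ) ^ 2 * 3 * (3.15 * ((k : ℝ) + 4) / 2) := by
          apply mul_le_mul _ hb hb0 (by positivity)
          exact mul_le_mul ih hr (by positivity) (by positivity)
      _ = (((k + 2).factorial : ℕ) : ℝ) ^ 2 * (3 * (3.15 * ((k : ℝ) + 4) / 2)) := by ring
      _ ≤ (((k + 2).factorial : ℕ) : ℝ) ^ 2 * ((k : ℝ) + 3) ^ 2 :=
          mul_le_mul_of_nonneg_left hq (by positivity)

theorem fact_bound (k : ℕ) (hk : 2 ≤ k) :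
    (Real.pi * ((k : ℝ) + 3) / 2) ^ (k + 1) ≤ (((k + 2).factorial : ℕ) : ℝ) ^ 2 := by
  rcases Nat.lt_or_ge k 3 with h | h
  · have hk2 : k = 2 := by omega
    subst hk2
    have hpi := Real.pi_lt_d2
    have hpi0 := Real.pi_pos
    have h1 : Real.pi * (((2 : ℕ) : ℝ) + 3) / 2 ≤ 7.875 := by
      push_cast
      linarith
    have h2 := pow_le_pow_left₀ (by positivity) h1 (2 + 1)
    have h3 : (((2 + 2).factorial : ℕ) : ℝ) ^ 2 = 576 := by
      norm_num [Nat.factorial]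
    rw [h3]
    refine h2.trans ?_
    norm_num
  · exact fact_bound_aux k h

/-- The main inequality in the index `k = n - 2`. -/
theorem kap_main (k : ℕ) : kap (k + 1) ^ (k + 2) ≤ 2 ^ (k + 2) * kap (k + 2) ^ k := by
  rcases Nat.lt_or_ge k 2 with hk | hk
  · have hk' : k = 0 ∨ k = 1 := by omega
    rcases hk' with rfl | rfl
    · show kap 1 ^ 2 ≤ 2 ^ 2 * kap 2 ^ 0
      rw [kap_one]
      norm_num
    · show kap 2 ^ 3 ≤ 2 ^ 3 * kap 3 ^ 1
      have e2 : kap 2 = Real.pi := by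
        have := kap_add_two 0
        rw [kap_zero] at this
        simpa using this
      have e3 : kap 3 = 4 * Real.pi / 3 := by
        have h := kap_add_two 1
        rw [kap_one] at h
        have h' : kap 3 = 2 * Real.pi / (((1 : ℕ) : ℝ) + 2) * 2 := h
        rw [h']
        push_cast
        ring
      rw [e2, e3]
      have hpi := Real.pi_lt_d2
      have hpi0 := Real.pi_pos
      have h2 : Real.pi ^ 2 ≤ 32 / 3 := by nlinarith
      have h3 : Real.pi * Real.pi ^ 2 ≤ Real.pi * (32 / 3) := mul_le_mul_of_nonneg_left h2 hpi0.le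
      calc Real.pi ^ 3 = Real.pi * Real.pi ^ 2 := by ring
        _ ≤ Real.pi * (32 / 3) := h3
        _ = 2 ^ 3 * (4 * Real.pi / 3) ^ 1 := by ring
  · have hA := kap_pos (k + 1)
    have hB := kap_pos (k + 2)
    have hF : (0 : ℝ) < (((k + 2).factorial : ℕ) : ℝ) := by positivity
    have hpi0 := Real.pi_pos
    have hc : (0 : ℝ) < (k : ℝ) + 3 := by positivity
    -- the three inputs
    have hP : kap (k + 1) * kap (k + 2) * (((k + 2).factorial : ℕ) : ℝ)
        = 2 * (2 * Real.pi) ^ (k + 1) := by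
      have := kap_mul_succ (k + 1)
      rw [show k + 1 + 1 = k + 2 from rfl] at this
      rw [this]
      field_simp
    have hrat : 2 * Real.pi * kap (k + 1) ^ 2 ≤ ((k : ℝ) + 3) * kap (k + 2) ^ 2 := by
      have := kap_ratio (k + 1)
      rw [show k + 1 + 1 = k + 2 from rfl] at this
      have e : (((k + 1 : ℕ) : ℝ)) + 2 = (k : ℝ) + 3 := by
        push_cast
        ring
      rw [e] at this
      exact this
    have hfact : (2 * Real.pi * ((k : ℝ) + 3)) ^ (k + 1)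
        ≤ (2 ^ (k + 1)) ^ 2 * (((k + 2).factorial : ℕ) : ℝ) ^ 2 := by
      have e : (2 * Real.pi * ((k : ℝ) + 3)) ^ (k + 1)
          = (2 ^ (k + 1)) ^ 2 * (Real.pi * ((k : ℝ) + 3) / 2) ^ (k + 1) := by
        rw [← pow_mul, mul_comm (k + 1) 2, pow_mul, ← mul_pow]
        congr 1
        ring
      rw [e]
      exact mul_le_mul_of_nonneg_left (fact_bound k hk) (by positivity)
    set A := kap (k + 1) with hAdef
    set B := kap (k + 2) with hBdef
    set F := (((k + 2).factorial : ℕ) : ℝ) with hFdef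
    set t := 2 * Real.pi with htdef
    set c := (k : ℝ) + 3 with hcdef
    have ht : 0 < t := by positivity
    clear_value A B F t c
    have h1 : (t * A ^ 2) ^ (k + 1) ≤ (c * B ^ 2) ^ (k + 1) :=
      pow_le_pow_left₀ (by positivity) hrat _
    have key : t ^ (k + 1) * F ^ 2 * (A ^ (k + 2) * B) ^ 2
        ≤ t ^ (k + 1) * F ^ 2 * (2 ^ (k + 2) * B ^ (k + 1)) ^ 2 := by
      calc t ^ (k + 1) * F ^ 2 * (A ^ (k + 2) * B) ^ 2
          = (t * A ^ 2) ^ (k + 1) * (A * B * F) ^ 2 := by ring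
        _ = (t * A ^ 2) ^ (k + 1) * (2 * t ^ (k + 1)) ^ 2 := by rw [hP]
        _ ≤ (c * B ^ 2) ^ (k + 1) * (2 * t ^ (k + 1)) ^ 2 :=
            mul_le_mul_of_nonneg_right h1 (by positivity)
        _ = 4 * t ^ (k + 1) * (B ^ 2) ^ (k + 1) * (t * c) ^ (k + 1) := by ring
        _ ≤ 4 * t ^ (k + 1) * (B ^ 2) ^ (k + 1) * ((2 ^ (k + 1)) ^ 2 * F ^ 2) :=
            mul_le_mul_of_nonneg_left hfact (by positivity)
        _ = t ^ (k + 1) * F ^ 2 * (2 ^ (k + 2) * B ^ (k + 1)) ^ 2 := by ring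
    have key2 : (A ^ (k + 2) * B) ^ 2 ≤ (2 ^ (k + 2) * B ^ (k + 1)) ^ 2 :=
      le_of_mul_le_mul_left key (by positivity)
    have key3 : A ^ (k + 2) * B ≤ 2 ^ (k + 2) * B ^ (k + 1) :=
      (pow_le_pow_iff_left₀ (by positivity) (by positivity) (two_ne_zero)).1 key2
    have key4 : A ^ (k + 2) * B ≤ 2 ^ (k + 2) * B ^ k * B := by
      calc A ^ (k + 2) * B ≤ 2 ^ (k + 2) * B ^ (k + 1) := key3
        _ = 2 ^ (k + 2) * B ^ k * B := by ring
    exact le_of_mul_le_mul_right key4 hB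

theorem kappa_real (n : ℕ) (hn : 2 ≤ n) :
    (Real.sqrt Real.pi ^ (n - 1) / Real.Gamma (((n - 1 : ℕ) : ℝ) / 2 + 1)) ^ n
      ≤ 2 ^ n * (Real.sqrt Real.pi ^ n / Real.Gamma ((n : ℝ) / 2 + 1)) ^ (n - 2) := by
  obtain ⟨k, rfl⟩ : ∃ k, n = k + 2 := ⟨n - 2, by omega⟩
  exact kap_main k

theorem kappa_ball (n : ℕ) (hn : 2 ≤ n) :
    volume (Metric.ball (0 : EuclideanSpace ℝ (Fin (n - 1))) 1) ^ n
      ≤ 2 ^ n * volume (Metric.ball (0 : EuclideanSpace ℝ (Fin n)) 1) ^ (n - 2) := by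
  have : Nonempty (Fin (n - 1)) := ⟨⟨0, by omega⟩⟩
  have : Nonempty (Fin n) := ⟨⟨0, by omega⟩⟩
  have h1 := EuclideanSpace.volume_ball (Fin (n - 1)) (0 : EuclideanSpace ℝ (Fin (n - 1))) 1
  have h2 := EuclideanSpace.volume_ball (Fin n) (0 : EuclideanSpace ℝ (Fin n)) 1
  rw [h1, h2]
  simp only [ENNReal.ofReal_one, one_pow, one_mul, Fintype.card_fin]
  have hk := kappa_real n hn
  have hpos1 : 0 ≤ Real.sqrt Real.pi ^ (n - 1) / Real.Gamma (((n - 1 : ℕ) : ℝ) / 2 + 1) := by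
    apply div_nonneg (by positivity)
    exact (Real.Gamma_pos_of_pos (by positivity)).le
  have hpos2 : 0 ≤ Real.sqrt Real.pi ^ n / Real.Gamma ((n : ℝ) / 2 + 1) := by
    apply div_nonneg (by positivity)
    exact (Real.Gamma_pos_of_pos (by positivity)).le
  rw [← ENNReal.ofReal_pow hpos1, ← ENNReal.ofReal_pow hpos2]
  have h2' : (2 : ENNReal) ^ n = ENNReal.ofReal (2 ^ n) := by
    rw [ENNReal.ofReal_pow (by norm_num)]
    simp
  rw [h2', ← ENNReal.ofReal_mul (by positivity)]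
  exact ENNReal.ofReal_le_ofReal hk

end Vale.Agent.Lib.P237.H38
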