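import Mathlib
import Vale.Agent.Lib.P237.helper1.FrDefs
import Vale.Agent.Lib.P237.helper98.Mat
import Vale.Agent.Lib.P237.helper98.Sweep

/-!
# P237 (helper38, backup copy of pool job P237-FR-1): three disjoint pieces inside the planar
shadow of a frustum

`trap_lower`: for a convex planar set `E`, a ratio `0 ≤ lam ≤ 1`, a translation `t` and two points
`e₁`, `e₂` of `E` such that `lam • e₁ + t` lies strictly on the positive side of the chord from
`e₁` to `e₂`, the shadow `frSet E lam t` contains three pieces separated by the two lines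
`chordFn = 0` and `chordFn = δ`: the part of `E` cut off by `W`, a trapezoid of area
`(1 + lam) / 2 * δ`, and a copy of `E \ W` scaled by `lam`.
-/

open MeasureTheory Set

namespace Vale.Agent.Lib.P237.H38

open Vale.Agent.Lib.P237

/-- Area of an affine image of an arbitrary planar set. -/
theorem vol_image_aff (α β γ δ : ℝ) (c : ℝ × ℝ) (S : Set (ℝ × ℝ)) :
    volume ((fun p : ℝ × ℝ => (α * p.1 + β * p.2 + c.1, γ * p.1 + δ * p.2 + c.2)) '' S)
      = ENNReal.ofReal |α * δ - β * γ| * volume S := by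
  have h : (fun p : ℝ × ℝ => (α * p.1 + β * p.2 + c.1, γ * p.1 + δ * p.2 + c.2)) '' S
      = shift ((fun p : ℝ × ℝ => (α * p.1 + β * p.2, γ * p.1 + δ * p.2)) '' S) c := by
    unfold shift
    rw [Set.image_image]
    rfl
  rw [h, vol_shift, vol_image_mat]

theorem continuous_chordFn (e₁ e₂ : ℝ × ℝ) : Continuous (chordFn e₁ e₂) := by
  unfold chordFn
  fun_prop

/-- The trapezoid in the chart. -/
def trapT (lam : ℝ) : Set (ℝ × ℝ) :=
  regionBetween (fun _ : ℝ => (0 : ℝ)) (fun r : ℝ => 1 - (1 - lam) * r) (Ioo (0 : ℝ) 1)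

theorem vol_trapT (lam : ℝ) (hl0 : 0 ≤ lam) :
    volume (trapT lam) = ENNReal.ofReal ((1 + lam) / 2) := by
  unfold trapT
  rw [Measure.volume_eq_prod]
  rw [volume_regionBetween_eq_integral]
  · congr 1
    rw [← integral_Ioc_eq_integral_Ioo, ← intervalIntegral.integral_of_le zero_le_one]
    have h : ∀ x ∈ Set.uIcc (0 : ℝ) 1,
        HasDerivAt (fun r : ℝ => r - (1 - lam) * r ^ 2 / 2)
          (((fun r : ℝ => 1 - (1 - lam) * r) - fun _ : ℝ => (0 : ℝ)) x) x := by
      intro x _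
      have h1 : HasDerivAt (fun r : ℝ => r - (1 - lam) * r ^ 2 / 2)
          (1 - (1 - lam) * (2 * x) / 2) x := by
        have h3 : HasDerivAt (fun r : ℝ => r ^ 2) (2 * x) x := by
          simpa using hasDerivAt_pow 2 x
        have h4 := (h3.const_mul (1 - lam)).div_const 2
        exact (hasDerivAt_id' x).sub h4
      convert h1 using 1
      simp
      ring
    rw [intervalIntegral.integral_eq_sub_of_hasDerivAt h]
    · ring
    · apply Continuous.intervalIntegrable
      fun_prop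
  · exact integrableOn_const (by simp)
  · have hc : Continuous (fun r : ℝ => 1 - (1 - lam) * r) := by fun_prop
    exact (hc.integrableOn_Icc (μ := volume) (a := 0) (b := 1)).mono_set Ioo_subset_Icc_self
  · exact measurableSet_Ioo
  · intro x hx
    have : (1 - lam) * x ≤ 1 * 1 := by
      apply mul_le_mul (by linarith) hx.2.le hx.1.le (by norm_num)
    linarith

theorem trap_lower (E : Set (ℝ × ℝ)) (hEv : Convex ℝ E) (lam : ℝ) (hl0 : 0 ≤ lam) (hl1 : lam ≤ 1)
    (t e₁ e₂ : ℝ × ℝ) (h1 : e₁ ∈ E) (h2 : e₂ ∈ E)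
    (hδ : 0 < chordFn e₁ e₂ (lam • e₁ + t)) (W : Set (ℝ × ℝ))
    (hW1 : ∀ e ∈ W, chordFn e₁ e₂ e ≤ 0) (hW2 : ∀ e ∈ E, e ∉ W → 0 ≤ chordFn e₁ e₂ e) :
    volume (E ∩ W) + ENNReal.ofReal (lam ^ 2) * volume (E \ W)
        + ENNReal.ofReal ((1 + lam) / 2 * chordFn e₁ e₂ (lam • e₁ + t))
      ≤ volume (frSet E lam t) := by
  have _hl1 := hl1
  obtain ⟨a1, b1⟩ := e₁
  obtain ⟨a2, b2⟩ := e₂
  obtain ⟨t1, t2⟩ := t
  set δ : ℝ := chordFn (a1, b1) (a2, b2) (lam • (a1, b1) + (t1, t2)) with hδdef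
  have hδv : δ = (a2 - a1) * (lam * b1 + t2 - b1) - (b2 - b1) * (lam * a1 + t1 - a1) := by
    rw [hδdef]
    simp [chordFn]
  -- the two separating closed half-planes
  set G1 : Set (ℝ × ℝ) := {x | chordFn (a1, b1) (a2, b2) x ≤ 0} with hG1def
  set G3 : Set (ℝ × ℝ) := {x | δ ≤ chordFn (a1, b1) (a2, b2) x} with hG3def
  have hG1 : MeasurableSet G1 :=
    (isClosed_le (continuous_chordFn _ _) continuous_const).measurableSet
  have hG3 : MeasurableSet G3 :=
    (isClosed_le continuous_const (continuous_chordFn _ _)).measurableSet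
  set S : Set (ℝ × ℝ) := frSet E lam (t1, t2) with hSdef
  -- the three pieces
  set S3 : Set (ℝ × ℝ) :=
    (fun p : ℝ × ℝ => (lam * p.1 + 0 * p.2 + t1, 0 * p.1 + lam * p.2 + t2)) '' (E \ W) with hS3def
  set S2 : Set (ℝ × ℝ) :=
    (fun p : ℝ × ℝ => ((lam * a1 + t1 - a1) * p.1 + (a2 - a1) * p.2 + a1,
      (lam * b1 + t2 - b1) * p.1 + (b2 - b1) * p.2 + b1)) '' trapT lam with hS2def
  have hv3 : volume S3 = ENNReal.ofReal (lam ^ 2) * volume (E \ W) := by
    have := vol_image_aff lam 0 0 lam (t1, t2) (E \ W)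
    rw [hS3def, this]
    congr 2
    rw [abs_of_nonneg (by nlinarith)]
    ring
  have hv2 : volume S2 = ENNReal.ofReal ((1 + lam) / 2 * δ) := by
    have := vol_image_aff (lam * a1 + t1 - a1) (a2 - a1) (lam * b1 + t2 - b1) (b2 - b1) (a1, b1)
      (trapT lam)
    rw [hS2def, this, vol_trapT lam hl0]
    have habs : |(lam * a1 + t1 - a1) * (b2 - b1) - (a2 - a1) * (lam * b1 + t2 - b1)| = δ := by
      rw [hδv] at hδ ⊢
      rw [abs_of_nonpos (by linarith)]
      ring
    rw [habs, ← ENNReal.ofReal_mul hδ.le]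
    congr 1
    ring
  -- inclusions
  have hi1 : E ∩ W ⊆ S ∩ G1 := by
    rintro e ⟨heE, heW⟩
    refine ⟨⟨e, heE, 0, le_rfl, zero_le_one, by simp⟩, hW1 e heW⟩
  have hi3 : S3 ⊆ (S \ G1) ∩ G3 := by
    rintro y ⟨e, ⟨heE, heW⟩, rfl⟩
    have hg : chordFn (a1, b1) (a2, b2) (lam * e.1 + 0 * e.2 + t1, 0 * e.1 + lam * e.2 + t2)
        = lam * chordFn (a1, b1) (a2, b2) e + δ := by
      rw [hδv]
      simp only [chordFn]
      ring
    have hge := hW2 e heE heW
    have hpos : δ ≤ lam * chordFn (a1, b1) (a2, b2) e + δ := by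
      have := mul_nonneg hl0 hge
      linarith
    refine ⟨⟨⟨e, heE, 1, zero_le_one, le_rfl, ?_⟩, ?_⟩, ?_⟩
    · ext <;> simp
    · show ¬ (chordFn (a1, b1) (a2, b2) _ ≤ 0)
      rw [hg]
      linarith
    · show δ ≤ chordFn (a1, b1) (a2, b2) _
      rw [hg]
      exact hpos
  have hi2 : S2 ⊆ (S \ G1) \ G3 := by
    rintro y ⟨p, hp, rfl⟩
    obtain ⟨hp1, hp2⟩ := hp
    obtain ⟨r, s⟩ := p
    simp only [mem_Ioo] at hp1 hp2
    obtain ⟨hr0, hr1⟩ := hp1
    obtain ⟨hs0, hs1⟩ := hp2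
    have hg : chordFn (a1, b1) (a2, b2) ((lam * a1 + t1 - a1) * r + (a2 - a1) * s + a1,
        (lam * b1 + t2 - b1) * r + (b2 - b1) * s + b1) = r * δ := by
      rw [hδv]
      simp only [chordFn]
      ring
    have hd : 0 < 1 - (1 - lam) * r := by
      have : (1 - lam) * r ≤ 1 * r := mul_le_mul_of_nonneg_right (by linarith) hr0.le
      linarith
    set d : ℝ := 1 - (1 - lam) * r with hddef
    set σ : ℝ := s / d with hσdef
    have hσ0 : 0 ≤ σ := div_nonneg hs0.le hd.le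
    have hσ1 : σ ≤ 1 := by
      rw [hσdef, div_le_one hd]
      exact hs1.le
    have hσd : σ * d = s := by
      rw [hσdef]
      field_simp
    have heE : (1 - σ) • ((a1, b1) : ℝ × ℝ) + σ • ((a2, b2) : ℝ × ℝ) ∈ E :=
      hEv h1 h2 (by linarith) hσ0 (by ring)
    refine ⟨⟨⟨_, heE, r, hr0.le, hr1.le, ?_⟩, ?_⟩, ?_⟩
    · ext
      · simp only [smul_eq_mul, Prod.mk_add_mk, Prod.smul_mk]
        rw [← hσd, hddef]
        ring
      · simp only [smul_eq_mul, Prod.mk_add_mk, Prod.smul_mk]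
        rw [← hσd, hddef]
        ring
    · show ¬ (chordFn (a1, b1) (a2, b2) _ ≤ 0)
      rw [hg]
      have := mul_pos hr0 hδ
      linarith
    · show ¬ (δ ≤ chordFn (a1, b1) (a2, b2) _)
      rw [hg]
      have : r * δ < 1 * δ := mul_lt_mul_of_pos_right hr1 hδ
      linarith
  -- additivity
  have hadd1 := measure_inter_add_sdiff (μ := volume) S hG1
  have hadd2 := measure_inter_add_sdiff (μ := volume) (S \ G1) hG3
  calc volume (E ∩ W) + ENNReal.ofReal (lam ^ 2) * volume (E \ W)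
        + ENNReal.ofReal ((1 + lam) / 2 * δ)
      = volume (E ∩ W) + (volume S3 + volume S2) := by rw [hv3, hv2, add_assoc]
    _ ≤ volume (S ∩ G1) + (volume ((S \ G1) ∩ G3) + volume ((S \ G1) \ G3)) :=
        add_le_add (measure_mono hi1) (add_le_add (measure_mono hi3) (measure_mono hi2))
    _ = volume S := by rw [hadd2, hadd1]

end Vale.Agent.Lib.P237.H38
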